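import Mathlib
import Vale.Agent.Lib.P172.Defs
import Vale.Agent.Lib.P172.Main

/-!
# P172: every word-hyperbolic group acts geometrically on a proper injective metric space
with an equivariant reversible conical geodesic bicombing

The space is the injective hull (tight span) of the group with its word metric; the argument
follows U. Lang, Injective hulls of certain discrete metric spaces and groups.
-/

namespace Vale.Agent.Results.P172.InjectiveHullAction

open Vale.Agent.Lib.P172

theorem result (G : Type) [Group G] (S : Finset G) (hS : Subgroup.closure (S : Set G) = ⊤)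
    (δ : ℕ) (hδ : SlimTriangles (SimpleGraph.mulCayley (S : Set G)) δ) :
    ∃ (Y : Type) (_ : MetricSpace Y) (_ : MulAction G Y),
      ProperSpace Y ∧ IsInjectiveMetric Y ∧
      IsIsometricSMul G Y ∧ ProperlyDiscontinuousSMul G Y ∧
      (∃ K : Set Y, IsCompact K ∧ ∀ y : Y, ∃ g : G, g • y ∈ K) ∧
      (∃ σ : Y → Y → unitInterval → Y, IsConicalBicombing σ ∧
        ∀ (g : G) (a b : Y) (t : unitInterval), g • σ a b t = σ (g • a) (g • b) t) ∧
      (∀ a b c d : Y, dist a b + dist c d ≤
        max (dist a c + dist b d) (dist b c + dist a d) + (6 * δ + 2)) ∧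
      (∃ e : G → Y, (∀ x y, dist (e x) (e y) = (SimpleGraph.mulCayley (S : Set G)).dist x y) ∧
        (∀ g x, g • e x = e (g * x)) ∧ ∀ y, ∃ x, dist y (e x) ≤ 6 * δ + 3) :=
  main G S hS δ hδ

end Vale.Agent.Results.P172.InjectiveHullAction
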